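import Vale.Agent.P181.TB.Defs
import Vale.Agent.P181.H54.Step

set_option autoImplicit false

/-! # P181, TB5: removing letters with one row, from `H54.plethMult_mono` -/

namespace Vale.Agent.P181.TB.H278

open Vale.Agent.P181.TB

theorem monoTB : MonoTB := by
  intro a b k lam mu h0 hs
  have h : mu = Vale.Agent.P181.H54.addFirst lam a := by
    funext i
    refine Fin.cases ?_ (fun j => ?_) i
    · simp [Vale.Agent.P181.H54.addFirst, h0]
    · simp [Vale.Agent.P181.H54.addFirst, hs j]
  rw [h]
  exact Vale.Agent.P181.H54.plethMult_mono a b lam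

end Vale.Agent.P181.TB.H278
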